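import Crest.Agent.X212.Ind26.Circ
import Crest.Agent.X212.Reg33.Num
import Crest.Agent.X212.Sup43.In

/-!
# X212 / Iso33 (helper33): disc systems under isotopies (ISO) and in a class (TRANSFER)
-/

set_option autoImplicit false
set_option linter.unusedSectionVars false

open Finset Classical

noncomputable section

namespace Crest.Agent.X212.Iso33

open Hp13 Cut21 Ind26
open Alg36 (Om Op)
open Sf30 (cs mem_cs)

variable {P Q : Type} [PartialOrder P] [Fintype P] [PartialOrder Q] [Fintype Q] {A : Set P}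
  {B : Set Q} {z u : P → P → ℤ} {w : Q → Q → ℤ} {f : Q → P}

theorem cnt_empty : cnt (∅ : Set (Lv A z)) = 0 := by
  ext x y
  simp [cnt, nlev, lev]

theorem cnt_union {T T' : Set (Lv A z)} (h : Disjoint T T') : cnt (T ∪ T') = cnt T + cnt T' := by
  ext x y
  simp only [cnt, Pi.add_apply]
  split_ifs with l
  · rw [nlev, nlev, nlev, ← Nat.cast_add, ← card_union_of_disjoint (disjoint_left.2 fun k a b => by
      obtain ⟨q, q1, q2, q3⟩ := (mem_filter.1 a).2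
      obtain ⟨r, r1, r2, r3⟩ := (mem_filter.1 b).2
      exact Set.disjoint_left.1 h q1 (Lv.ext (r2.trans q2.symm) (r3.trans q3.symm) ▸ r1)),
      ← filter_or]
    congr 2
    exact filter_congr fun k _ => ⟨fun ⟨q, a, b⟩ => a.imp (⟨q, ·, b⟩) (⟨q, ·, b⟩),
      fun a => a.elim (fun ⟨q, a, b⟩ => ⟨q, Or.inl a, b⟩) fun ⟨q, a, b⟩ => ⟨q, Or.inr a, b⟩⟩
  · rfl

/-- two sets of cells with the same levels on an edge -/
theorem cnt_eq {T : Set (Lv A z)} {T' : Set (Lv B w)} {x y : P} {x' y' : Q} (l : x ≤ y)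
    (l' : x' ≤ y') (e : w x' y' = z x y)
    (h : ∀ k, 0 ≤ k → k < z x y → (lev T' (Ch.pr x' y' l') k ↔ lev T (Ch.pr x y l) k)) :
    cnt T' x' y' = cnt T x y := by
  rw [cnt, cnt, dif_pos l, dif_pos l', e, nlev, nlev,
    filter_congr fun k a => h k (mem_Ico.1 a).1 (mem_Ico.1 a).2]

theorem Sat.diff {T T' : Set (Lv A z)} (h : Sat T) (h' : Sat T') : Sat (T \ T') :=
  fun p q l => and_congr (h p q l) (not_congr (h' p q l))

variable [IsCoc A z] [IsCoc A u] [IsCoc B w]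

theorem dn_sub {T D : Set (Lv A z)} (h : Sat T) (hD : IsCmp (LA A z) D) {p : Lv A z} (a : p ∈ D)
    (b : p ∈ T) : dn D ⊆ T := fun q ⟨r, r1, r2⟩ =>
  (h q r r2).2 ((hD.conn p a r r1).ind b fun x _ y _ l => h x y l)

theorem ex_cmp (hm : Mono A z) (q : Lv A z) : ∃ D, IsCmp (LA A z) D ∧ q ∈ dn D :=
  let ⟨p, a, b⟩ := Lv.exists_la hm q; ⟨_, isCmp_cmp a, p, mem_cmp_self a, b⟩

theorem cmp_uniq (hN : Nice A) (hm : Mono A z) {D E : Set (Lv A z)} (hD : IsCmp (LA A z) D)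
    (hE : IsCmp (LA A z) E) {q : Lv A z} (a : q ∈ dn D) (b : q ∈ dn E) : D = E :=
  let ⟨_, p1, p2⟩ := a
  let ⟨_, r1, r2⟩ := b
  (hD.eq p1).trans ((cmp_eq (hN.rch hm (hD.sub p1) (hE.sub r1) p2 r2)).trans (hE.eq r1).symm)

/-- induction over the components of a saturated set -/
theorem sat_ind (hN : Nice A) (hm : Mono A z) {S : (P → P → ℤ) → Prop} (h0 : S 0)
    (ha : ∀ u v, S u → S v → S (u + v)) {T : Set (Lv A z)} (hT : Sat T)
    (h : ∀ D, IsCmp (LA A z) D → dn D ⊆ T → S (cnt (dn D))) : S (cnt T) := by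
  induction hn : T.ncard using Nat.strong_induction_on generalizing T with
  | _ n ih =>
  rcases T.eq_empty_or_nonempty with rfl | ⟨q, hq⟩
  · exact cnt_empty (A := A) (z := z) ▸ h0
  obtain ⟨D, hD, p, p1, p2⟩ := ex_cmp hm q
  have s := dn_sub hT hD p1 ((hT q p p2).1 hq)
  rw [← Set.union_sdiff_cancel s, cnt_union Set.disjoint_sdiff_right]
  exact ha _ _ (h D hD s) (ih _ (hn ▸ Set.ncard_lt_ncard
    ⟨Set.sdiff_subset, fun k => (k hq).2 ⟨p, p1, p2⟩⟩) (Sat.diff hT (sat_cmp hN hm hD))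
    (fun E a b => h E a (b.trans Set.sdiff_subset)) rfl)

theorem chi_cs (hm : Mono A z) : chi A z = ∑ D ∈ cs (LA A z), chiC D :=
  (chi_eq_chiC hm).trans (Sf30.sum_cs _ fun p : Lv A z => p.1.1.sg).symm

theorem spn_zero : Spn A z 0 := cb_zero (P := P) (G := ℤ) ▸ Spn.cb 0

theorem spn_pb (hN : Nice A) (hm : Mono A z) (hf : Monotone f) (e : B = f ⁻¹' A)
    (h : ∀ D, IsCmp (LA A z) D → Spn B w (pb f (cnt (dn D)))) {v : P → P → ℤ} (k : Spn A z v) :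
    Spn B w (pb f v) := by
  induction k with
  | part a =>
    exact sat_ind hN hm (S := fun v => Spn B w (pb f v)) spn_zero (fun _ _ a b => a.add b) a
      fun D a _ => h D a
  | cb g => exact Spn.cb (g ∘ f)
  | add _ _ a b => exact a.add b
  | neg _ a => exact a.neg
  | congr _ a b => exact b.congr (e ▸ a.pb hf)

/-- a bijection of the components -/
theorem ds_of (hN : Nice A) (hN' : Nice B) (hz : DS A z) (hw : Sf B w) (hf : Monotone f)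
    (e : B = f ⁻¹' A) (on : ∀ v : Q → Q → ℤ, Coc B v → ∃ u g, Coc A u ∧ EqD B v (pb f u + cb g))
    (φ : Set (Lv A z) → Set (Lv B w)) (h1 : ∀ D, IsCmp (LA A z) D → IsCmp (LA B w) (φ D))
    (h2 : ∀ D, IsCmp (LA A z) D → ∀ D', IsCmp (LA A z) D' → φ D = φ D' → D = D')
    (h3 : ∀ E, IsCmp (LA B w) E → ∃ D, IsCmp (LA A z) D ∧ φ D = E)
    (h4 : ∀ D, IsCmp (LA A z) D → chiC (φ D) = 1 ∧ nm B (cnt (dn (φ D))) = nm A (cnt (dn D)) ∧
      ∃ g, EqD B (cnt (dn (φ D))) (pb f (cnt (dn D)) + cb g)) : DS B w ∧ idx B w = idx A z := by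
  refine ⟨⟨hw, fun E a => ?_, fun v a => ?_⟩, (sum_bij (fun D _ => φ D)
    (fun D a => mem_cs.2 (h1 D (mem_cs.1 a))) (fun D a D' b => h2 D (mem_cs.1 a) D' (mem_cs.1 b))
    (fun E a => let ⟨D, b, c⟩ := h3 E (mem_cs.1 a); ⟨D, mem_cs.2 b, c⟩)
    fun D a => by rw [(h4 D (mem_cs.1 a)).2.1]).symm⟩
  · obtain ⟨D, b, rfl⟩ := h3 E a
    exact (h4 D b).1
  · obtain ⟨u, g, b, c⟩ := on v a
    refine ((spn_pb hN hz.sf.mono hf e (fun D d => ?_) (hz.span u b)).add (Spn.cb g)).congr c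
    obtain ⟨g, k⟩ := (h4 D d).2.2
    exact ((Spn.part (sat_cmp hN' hw.mono (h1 D d))).add (Spn.cb g).neg).congr fun x y j => by
      rw [Pi.add_apply, Pi.add_apply, k x y j]; simp

theorem chiC_cmp (hN : Nice A) (hm : Mono A z) {D : Set (Lv A z)} (hD : IsCmp (LA A z) D) :
    chi A (cnt (dn D)) = chiC D := by
  rw [(sat_cmp hN hm hD).chi hm]
  congr 1
  exact Set.ext fun q => ⟨fun k => (mem_dn (fun _ a _ b => hD.clopen a b) k.1).1 k.2,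
    fun k => ⟨hD.sub k, q, k, le_refl q⟩⟩

theorem iso0 (hN : Nice A) (hN' : Nice B) (hz : DS A z) (hw : Sf B w) (hf : Monotone f)
    (e : B = f ⁻¹' A) (on : ∀ v : Q → Q → ℤ, Coc B v → ∃ u g, Coc A u ∧ EqD B v (pb f u + cb g))
    {m : Lv B w → Lv A z} (h : Iso f A z B w m) : DS B w ∧ idx B w = idx A z := by
  have c : ∀ p ∈ LA B w, cmp (LA B w) p = {r | r ∈ LA B w ∧ m r ∈ cmp (LA A z) (m p)} :=
    fun p a => Set.ext fun r => and_congr_right fun b => ⟨fun k => ⟨h.la r b, k.map fun x i y j l =>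
      Rch.of_cm (h.la x i) (h.la y j) (Or.inl (h.mono l))⟩, fun k => h.rch p a r b k.2⟩
  have ex : ∀ D, IsCmp (LA A z) D → ∃ p ∈ LA B w, D = cmp (LA A z) (m p) := fun D ⟨q, a, b⟩ =>
    let ⟨p, p1, p2⟩ := h.surj q a; ⟨p, p1, b.trans (cmp_eq p2).symm⟩
  have h1 : ∀ D, IsCmp (LA A z) D → IsCmp (LA B w) {r | r ∈ LA B w ∧ m r ∈ D} := fun D a =>
    let ⟨p, p1, p2⟩ := ex D a; ⟨p, p1, p2 ▸ (c p p1).symm⟩
  refine ds_of hN hN' hz hw hf e on _ h1 (fun D a D' b k => ?_)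
    (fun E ⟨p, a, b⟩ => ⟨_, isCmp_cmp (h.la p a), (c p a).symm.trans b.symm⟩) fun D a => ?_
  · obtain ⟨p, p1, p2⟩ := (h1 D a).ne
    exact (a.eq p2).trans (b.eq (k.subset ⟨p1, p2⟩).2).symm
  have s := sat_cmp hN hz.sf.mono a
  have d : dn {r | r ∈ LA B w ∧ m r ∈ D} = m ⁻¹' dn D := Set.ext fun r =>
    ⟨fun ⟨p, p1, p2⟩ => ⟨m p, p1.2, h.mono p2⟩, fun k =>
      let ⟨p, p1, p2⟩ := Lv.exists_la hw.mono r
      ⟨p, ⟨p1, (mem_dn (fun _ i _ j => a.clopen i j) (h.la p p1)).1 ((s _ _ (h.mono p2)).1 k)⟩, p2⟩⟩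
  refine ⟨?_, d ▸ h.nm _ s, let ⟨g, _, k⟩ := h.coh _ s; ⟨g, d ▸ k⟩⟩
  rw [← chiC_cmp hN' hw.mono (h1 D a), d, h.chi _ s, chiC_cmp hN hz.sf.mono a, hz.disc D a]

/-- **ISO** -/
theorem isoStmt : IsoStmt := fun _ _ _ _ _ _ _ _ hs hd hz hw h =>
  iso0 hs.nice (Alg36.Good.desc hs hd).nice hz hw hd.mono hd.A_eq
    (fun _ => Alg36.Nice.exists_pb_desc hs.conv hs.nice hd) h

section same

variable {v : P → P → ℤ} [IsCoc A v]

theorem bd_ex (h : Eqv A u v) {q : Lv A u} (hq : q ∉ LA A u) : ∃ r : Lv A v, r.1 = q.1 :=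
  ⟨⟨q.1, q.2.1, q.2.2.1, h.off q.2.1.bt (off_bt hq).1 (off_bt hq).2 ▸ q.2.2.2⟩, rfl⟩

theorem bd_le (h : Eqv A u v) {q q' : Lv A u} {r r' : Lv A v} (e : r.1 = q.1) (e' : r'.1 = q'.1)
    (hq : q' ∉ LA A u) (l : q ≤ q') : r ≤ r' := by
  obtain ⟨a, b⟩ := Lv.le_iff.1 l
  rw [Lv.le_iff, e, e', ← h.off (q'.2.1.dp q'.1.1.bot_mem (a q.1.1.bot_mem) (Ch.bot_anti a))
    (off_bt hq).1 fun k => hq ⟨_, a q.1.1.bot_mem, k⟩]
  exact ⟨a, b⟩

theorem tr0 (hA : A.OrdConnected) (hM : Mf 3 A) (hN : Nice A) (hB : Bnd ℤ A) (hu : DS A u)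
    (hv : Sf A v) (he : Eqv A u v) (hc : chi A u ≤ chi A v) : DS A v ∧ idx A v = idx A u := by
  have ex : ∀ D, IsCmp (LA A u) D → ∃ E, IsCmp (LA A v) E ∧
      ∀ q ∈ Bd D, ∀ r : Lv A v, r.1 = q.1 → r ∈ dn E := fun D a => by
    obtain ⟨p, p1, q, q1, q2⟩ := hu.sf.noCl D a
    obtain ⟨r, r1⟩ := bd_ex he q1
    obtain ⟨E, b, c⟩ := ex_cmp hv.mono r
    refine ⟨E, b, fun q' k => (conn_bd hM hu.sf.mono a (hu.disc D a) q ⟨q1, p, p1, q2⟩ q' k).ind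
      (p := fun q => ∀ r : Lv A v, r.1 = q.1 → r ∈ dn E)
      (fun r' j => Subtype.ext (r1.trans j.symm) ▸ c) fun x i y j l => ?_⟩
    obtain ⟨x', x1⟩ := bd_ex he i.1
    obtain ⟨y', y1⟩ := bd_ex he j.1
    have := sat_cmp hN hv.mono b x' y' (bd_le he x1 y1 j.1 l)
    exact ⟨fun H r' o => Subtype.ext (y1.trans o.symm) ▸ this.1 (H _ x1),
      fun H r' o => Subtype.ext (x1.trans o.symm) ▸ this.2 (H _ y1)⟩
  choose! φ h1 h2 using ex
  have h3 : ∀ E, IsCmp (LA A v) E → ∃ D, IsCmp (LA A u) D ∧ φ D = E := fun E a => by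
    obtain ⟨p, p1, r, r1, r2⟩ := hv.noCl E a
    obtain ⟨q, q1⟩ := bd_ex he.symm r1
    obtain ⟨D, b, c⟩ := ex_cmp hu.sf.mono q
    exact ⟨D, b, cmp_uniq hN hv.mono (h1 D b) a (h2 D b q ⟨fun k => r1 (show Mt A r.1.1 from
      q1 ▸ k), c⟩ r q1.symm) ⟨p, p1, r2⟩⟩
  have im : cs (LA A v) = (cs (LA A u)).image φ := Finset.ext fun E => by
    simp only [mem_image, mem_cs]
    exact ⟨h3 E, fun ⟨D, a, b⟩ => b ▸ h1 D a⟩
  have le : ∀ E ∈ cs (LA A v), 0 ≤ 1 - chiC E := fun E a =>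
    sub_nonneg.2 (cmp_le_one hM hv.mono (mem_cs.1 a) (hv.noCl E (mem_cs.1 a)))
  have c1 := sum_nonneg le
  have c2 := card_image_le (s := cs (LA A u)) (f := φ)
  rw [chi_cs hu.sf.mono, chi_cs hv.mono, sum_congr rfl fun D a => hu.disc D (mem_cs.1 a)] at hc
  have c3 : ∑ E ∈ cs (LA A v), (1 - chiC E) = (cs (LA A v)).card - ∑ E ∈ cs (LA A v), chiC E := by
    simp
  rw [sum_const, nsmul_eq_mul, mul_one] at hc
  rw [← im] at c2
  have inj := card_image_iff.1 (show ((cs (LA A u)).image φ).card = _ by rw [← im]; omega)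
  have h4 : ∀ D, IsCmp (LA A u) D → ∀ D', IsCmp (LA A u) D' → φ D = φ D' → D = D' :=
    fun D a D' b => inj (mem_coe.2 (mem_cs.2 a)) (mem_coe.2 (mem_cs.2 b))
  refine ds_of (f := id) hN hN hu hv monotone_id rfl (fun v a => ⟨v, 0, a, fun _ _ _ => by
    simp [cb, pb]⟩) φ h1 h4 h3 fun D a => ?_
  have k : ∀ x y, Dp A x y → x ∉ A → y ∉ A → cnt (dn D) x y = cnt (dn (φ D)) x y :=
    fun x y hp hx hy => cnt_eq hp.1 hp.1 (he.off hp hx hy) fun k k0 k1 => by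
      have n : ¬ Mt A (Ch.pr x y hp.1) := not_mt.2 fun t i => (mem_pr.1 i).elim (· ▸ hx) (· ▸ hy)
      refine ⟨fun ⟨q, q1, q2, q3⟩ => ?_, fun ⟨r, r1, r2, r3⟩ => ?_⟩
      · have q0 : q ∉ LA A u := fun i => n (q2 ▸ i)
        obtain ⟨r, e⟩ := bd_ex he q0
        exact ⟨r, h2 D a q ⟨q0, q1⟩ r e, e ▸ q2, e ▸ q3⟩
      · have r0 : r ∉ LA A v := fun i => n (r2 ▸ i)
        obtain ⟨q, e⟩ := bd_ex he.symm r0
        obtain ⟨D', b, c⟩ := ex_cmp hu.sf.mono q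
        exact ⟨q, h4 D' b D a (cmp_uniq hN hv.mono (h1 D' b) (h1 D a) (h2 D' b q
          ⟨fun i => r0 (show Mt A r.1.1 from e ▸ i), c⟩ r e.symm) r1) ▸ c, e ▸ r2, e ▸ r3⟩
  obtain ⟨g, -, hg⟩ := hB.eqv ((sat_cmp hN hu.sf.mono a).coc hu.sf.mono)
    ((sat_cmp hN hv.mono (h1 D a)).coc hv.mono) k
  refine ⟨(sub_eq_zero.1 ((sum_eq_zero_iff_of_nonneg le).1 (by omega) _ (mem_cs.2 (h1 D a)))).symm,
    sum_congr rfl fun c i => ?_, g, hg⟩
  have i := (mem_filter.1 i).2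
  rw [k _ _ (dp_om i c.bot_le_top) (om_dn hA i c.bot_le_top).1 i.1]

end same

theorem nm_desc {s t : St} {f : t.P → s.P} (h : Desc s t f) (z : s.P → s.P → ℤ) :
    nm t.A (pb f z) = nm s.A z := by
  have o : ∀ x, x ∈ Om t.A ↔ f x ∈ Om s.A := fun x => by
    rw [h.A_eq]
    exact and_congr_right fun _ => ⟨fun ⟨a, b, l⟩ => ⟨_, b, h.mono l⟩, fun ⟨a, b, l⟩ =>
      let ⟨p, i, j⟩ := Sup43.desc_up h l; ⟨p, show f p ∈ s.A from j ▸ b, i⟩⟩
  have := h.acyc.sum h.mono fun e : Ch s.P => if e.top ∈ Om s.A then z e.bot e.top else 0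
  simp only [Ch.top_img, Ch.bot_img, mul_ite, mul_zero] at this
  rw [nm, nm, sum_filter, sum_filter]
  simp only [o]
  exact this

theorem cnt_map (h : Kh11.Rf f A z B w) (T : Set (Lv A z)) :
    EqD B (cnt (h.map ⁻¹' T)) (pb f (cnt T)) := fun x y hp => by
  have e : h.im (Ch.pr x y hp.1) = Ch.pr (f x) (f y) (h.ce.mono hp.1) :=
    Ch.ext (Finset.ext fun t => by simp [Kh11.Rf.im, Ch.mem_img, eq_comm])
  exact cnt_eq (h.ce.mono hp.1) hp.1 (h.eq x y hp) fun k _ _ =>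
    ⟨fun ⟨q, q1, q2, q3⟩ => ⟨_, q1, by rw [h.map_ch, q2, e], q3⟩, fun ⟨q, q1, q2, q3⟩ =>
      ⟨h.lift q _ ((dom_pr hp.1).2 hp) (e.trans q2.symm),
        show h.map _ ∈ T from (h.map_lift _ _ _ _).symm ▸ q1, rfl, q3⟩⟩

/-- a refinement is an isotopy -/
theorem iso_desc {s t : St} {f : t.P → s.P} (h : Desc s t f) {z : s.P → s.P → ℤ} [IsCoc s.A z]
    [IsCoc t.A (pb f z)] (hm : Mono s.A z) : Iso f s.A z t.A (pb f z) (h.rf z).map where
  mono := (h.rf z).map_mono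
  la _ := (h.rf z).map_LA.2
  surj _ := ((h.rf z).ws_LA hm).surj
  rch _ a _ b := (((h.rf z).ws_LA hm).rch_iff a b).2
  chi T _ := (chi_congr (cnt_map _ T)).trans (h.chi _)
  nm T _ := (Reg33.nm_congr (cnt_map _ T)).trans (nm_desc h _)
  coh T _ := ⟨0, fun _ _ => rfl, by rw [cb_zero, add_zero]; exact cnt_map _ T⟩
  dip x y hp hx hy k := by
    rw [h.A_eq] at hp hx hy
    exact ⟨f x, f y, hp.map h.mono, hx, ⟨hy.1, let ⟨_, a, l⟩ := hy.2; ⟨_, a, h.mono l⟩⟩, k⟩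

/-- **TRANSFER** -/
theorem trStmt : TrStmt := fun s t f z _ _ _ hs hd hz hw he hc =>
  have ht := Alg36.Good.desc hs hd
  have : IsCoc t.A (pb f z) := ⟨hd.coc hz.sf.coc⟩
  have a := isoStmt s t f z _ _ hs hd hz (hd.sf hz.sf) (iso_desc hd hz.sf.mono)
  have b := tr0 ht.conv ht.mf ht.nice ht.bnd a.1 hw he (hd.chi z ▸ hc)
  ⟨b.1, b.2.trans a.2⟩

end Crest.Agent.X212.Iso33
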